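import Mathlib

namespace Vale.Agent.H43.P160

open Finset

/-- The second Bonferroni inequality for finitely many finite sets, in the form
`2 Σ |E a| ≤ 2 |⋃ E a| + Σ_{a ≠ b} |E a ∩ E b|` (ordered pairs). -/
lemma bonferroni {α ι : Type*} [Fintype α] [DecidableEq α] [DecidableEq ι]
    (I : Finset ι) (E : ι → Finset α) :
    2 * ∑ a ∈ I, (E a).card ≤
      2 * (I.biUnion E).card + ∑ a ∈ I, ∑ b ∈ I.erase a, (E a ∩ E b).card := by
  classical
  have h1 : ∀ a, (E a).card = ∑ x : α, if x ∈ E a then 1 else 0 := by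
    intro a; simp
  have h2 : ∀ a b, (E a ∩ E b).card = ∑ x : α, if x ∈ E a ∧ x ∈ E b then 1 else 0 := by
    intro a b
    rw [← Finset.card_filter]
    congr 1
    ext x; simp
  have h3 : (I.biUnion E).card = ∑ x : α, if ∃ a ∈ I, x ∈ E a then 1 else 0 := by
    rw [← Finset.card_filter]
    congr 1
    ext x; simp
  simp only [h1, h2, h3]
  rw [Finset.sum_comm]
  have hsw : ∑ a ∈ I, ∑ b ∈ I.erase a, ∑ x : α, (if x ∈ E a ∧ x ∈ E b then 1 else 0) =
      ∑ x : α, ∑ a ∈ I, ∑ b ∈ I.erase a, (if x ∈ E a ∧ x ∈ E b then 1 else 0) := by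
    rw [Finset.sum_comm]
    apply Finset.sum_congr rfl
    intro a _
    rw [Finset.sum_comm]
  rw [hsw, Finset.mul_sum, Finset.mul_sum, ← Finset.sum_add_distrib]
  apply Finset.sum_le_sum
  intro x _
  set J := I.filter (fun a => x ∈ E a) with hJ
  have e1 : (∑ a ∈ I, if x ∈ E a then 1 else 0) = J.card := by
    rw [hJ, Finset.card_filter]
  have e2 : (∑ a ∈ I, ∑ b ∈ I.erase a, if x ∈ E a ∧ x ∈ E b then 1 else 0) =
      J.card * (J.card - 1) := by
    have : ∀ a ∈ I, (∑ b ∈ I.erase a, if x ∈ E a ∧ x ∈ E b then 1 else 0) =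
        if x ∈ E a then (J.card - 1) else 0 := by
      intro a ha
      by_cases hxa : x ∈ E a
      · simp only [hxa, true_and, if_true]
        rw [← Finset.card_filter]
        have : (I.erase a).filter (fun b => x ∈ E b) = J.erase a := by
          ext b
          simp only [hJ, mem_filter, mem_erase]
          tauto
        rw [this, Finset.card_erase_of_mem]
        simp [hJ, ha, hxa]
      · simp [hxa]
    rw [Finset.sum_congr rfl this, ← Finset.sum_filter, ← hJ]
    simp
  have e3 : (if ∃ a ∈ I, x ∈ E a then 1 else 0) = if 0 < J.card then 1 else 0 := by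
    have : (∃ a ∈ I, x ∈ E a) ↔ 0 < J.card := by
      rw [Finset.card_pos]
      constructor
      · rintro ⟨a, ha, hx⟩; exact ⟨a, by simp [hJ, ha, hx]⟩
      · rintro ⟨a, ha⟩
        simp only [hJ, mem_filter] at ha
        exact ⟨a, ha.1, ha.2⟩
    simp only [this]
  rw [e1, e2, e3]
  rcases Nat.eq_zero_or_pos J.card with h0 | hpos
  · simp [h0]
  · simp only [hpos, if_true]
    obtain ⟨m, hm⟩ : ∃ m, J.card = m + 1 := ⟨J.card - 1, by omega⟩
    rw [hm]
    have : m + 1 - 1 = m := by omega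
    rw [this]
    nlinarith [Nat.le_mul_self m]

end Vale.Agent.H43.P160
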