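import Mathlib

namespace Vale.Agent.H43.P160

open Finset

variable {n : ℕ}

/-- The event that row `j` equals row `i` (if `s = false`) or minus row `i` (if `s = true`),
for a symmetric sign pattern `u` indexed by unordered pairs. -/
def rowEv (i j : Fin n) (s : Bool) : Finset (Sym2 (Fin n) → Bool) :=
  univ.filter fun u => ∀ m, u s(j, m) = xor (u s(i, m)) s

lemma mem_rowEv {i j : Fin n} {s : Bool} {u : Sym2 (Fin n) → Bool} :
    u ∈ rowEv i j s ↔ ∀ m, u s(j, m) = xor (u s(i, m)) s := by
  simp [rowEv]

lemma rowEv_symm (i j : Fin n) (s : Bool) : rowEv i j s = rowEv j i s := by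
  ext u
  simp only [mem_rowEv]
  constructor
  · intro h m
    rw [h m]
    cases u s(i, m) <;> cases s <;> rfl
  · intro h m
    rw [h m]
    cases u s(j, m) <;> cases s <;> rfl

/-- Extension: overwrite row `j` by (±) row `i`. -/
def extFun (i j : Fin n) (s : Bool) (u : Sym2 (Fin n) → Bool) : Sym2 (Fin n) → Bool :=
  Sym2.lift ⟨fun a b =>
    if a = j then (if b = j then u s(i, i) else xor (u s(i, b)) s)
    else if b = j then xor (u s(i, a)) s else u s(a, b), by
      intro a b
      by_cases ha : a = j <;> by_cases hb : b = j <;> simp [ha, hb, Sym2.eq_swap]⟩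

lemma extFun_mk (i j : Fin n) (s : Bool) (u : Sym2 (Fin n) → Bool) (a b : Fin n) :
    extFun i j s u s(a, b) =
      if a = j then (if b = j then u s(i, i) else xor (u s(i, b)) s)
      else if b = j then xor (u s(i, a)) s else u s(a, b) := by
  simp [extFun]

lemma extFun_mem (i j : Fin n) (hij : i ≠ j) (s : Bool) (u : Sym2 (Fin n) → Bool) :
    extFun i j s u ∈ rowEv i j s := by
  rw [mem_rowEv]
  intro m
  rw [extFun_mk, extFun_mk]
  by_cases hm : m = j
  · subst hm
    simp [hij]
  · simp [hij, hm]

/-- Lower bound for a single event: `2 ^ N ≤ |E| * 2 ^ n`. -/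
lemma card_rowEv_ge (i j : Fin n) (hij : i ≠ j) (s : Bool) :
    2 ^ Fintype.card (Sym2 (Fin n)) ≤ 2 ^ n * (rowEv i j s).card := by
  classical
  have h1 : (univ : Finset (Sym2 (Fin n) → Bool)).card ≤
      2 ^ n * ((univ : Finset (Sym2 (Fin n) → Bool)).image (extFun i j s)).card := by
    apply Finset.card_le_mul_card_image
    intro e _
    -- the fibre injects into `Fin n → Bool`
    have : (univ.filter fun u : Sym2 (Fin n) → Bool => extFun i j s u = e).card ≤
        (univ : Finset (Fin n → Bool)).card := by
      apply Finset.card_le_card_of_injOn (fun u m => u s(j, m))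
      · intro u _
        simp
      · intro u hu u' hu' huu'
        simp only [coe_filter, mem_univ, true_and, Set.mem_ofPred_eq] at hu hu'
        funext z
        induction z using Sym2.ind with
        | _ a b =>
          by_cases ha : a = j
          · subst ha
            exact congrFun huu' b
          · by_cases hb : b = j
            · subst hb
              rw [Sym2.eq_swap]
              exact congrFun huu' a
            · have e1 := congrFun hu s(a, b)
              have e2 := congrFun hu' s(a, b)
              rw [extFun_mk] at e1 e2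
              simp only [ha, hb, if_false] at e1 e2
              rw [e1, e2]
    simpa using this
  have h2 : ((univ : Finset (Sym2 (Fin n) → Bool)).image (extFun i j s)).card ≤
      (rowEv i j s).card := by
    apply Finset.card_le_card
    intro e he
    rw [mem_image] at he
    obtain ⟨u, _, rfl⟩ := he
    exact extFun_mem i j hij s u
  have h3 : (univ : Finset (Sym2 (Fin n) → Bool)).card = 2 ^ Fintype.card (Sym2 (Fin n)) := by
    simp
  calc 2 ^ Fintype.card (Sym2 (Fin n)) = (univ : Finset (Sym2 (Fin n) → Bool)).card := h3.symm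
    _ ≤ 2 ^ n * ((univ : Finset (Sym2 (Fin n) → Bool)).image (extFun i j s)).card := h1
    _ ≤ 2 ^ n * (rowEv i j s).card := Nat.mul_le_mul_left _ h2


/-- Two row relations `row x = ± row x'`, `row y = ± row y'` with `x ≠ y` and `x', y' ∉ {x, y}`
determine the pattern from its entries avoiding `x` and `y`. -/
lemma determined {x x' y y' : Fin n} (hx'x : x' ≠ x) (hx'y : x' ≠ y)
    (hy'x : y' ≠ x) (hy'y : y' ≠ y) {s t : Bool} {u v : Sym2 (Fin n) → Bool}
    (hu1 : u ∈ rowEv x' x s) (hu2 : u ∈ rowEv y' y t)
    (hv1 : v ∈ rowEv x' x s) (hv2 : v ∈ rowEv y' y t)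
    (h : ∀ a b : Fin n, a ≠ x → a ≠ y → b ≠ x → b ≠ y → u s(a, b) = v s(a, b)) :
    u = v := by
  rw [mem_rowEv] at hu1 hu2 hv1 hv2
  -- entries (x, m) with m outside {x, y}
  have hxm : ∀ m, m ≠ x → m ≠ y → u s(x, m) = v s(x, m) := by
    intro m hm1 hm2
    rw [hu1 m, hv1 m, h x' m hx'x hx'y hm1 hm2]
  have hym : ∀ m, m ≠ x → m ≠ y → u s(y, m) = v s(y, m) := by
    intro m hm1 hm2
    rw [hu2 m, hv2 m, h y' m hy'x hy'y hm1 hm2]
  have hxx : u s(x, x) = v s(x, x) := by
    rw [hu1 x, hv1 x, Sym2.eq_swap, hxm x' hx'x hx'y]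
  have hyy : u s(y, y) = v s(y, y) := by
    rw [hu2 y, hv2 y, Sym2.eq_swap, hym y' hy'x hy'y]
  have hxy : u s(x, y) = v s(x, y) := by
    rw [hu1 y, hv1 y, Sym2.eq_swap, hym x' hx'x hx'y]
  funext z
  induction z using Sym2.ind with
  | _ a b =>
    by_cases ha : a = x
    · subst ha
      by_cases hb : b = a
      · subst hb; exact hxx
      · by_cases hb' : b = y
        · subst hb'; exact hxy
        · exact hxm b hb hb'
    · by_cases ha' : a = y
      · subst ha'
        by_cases hb : b = x
        · subst hb; rw [Sym2.eq_swap]; exact hxy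
        · by_cases hb' : b = a
          · subst hb'; exact hyy
          · exact hym b hb hb'
      · by_cases hb : b = x
        · subst hb; rw [Sym2.eq_swap]; exact hxm a ha ha'
        · by_cases hb' : b = y
          · subst hb'; rw [Sym2.eq_swap]; exact hym a ha ha'
          · exact h a b ha ha' hb hb'

/-- The number of unordered pairs meeting `{x, y}` is `2 n - 1`. -/
lemma card_meets {x y : Fin n} (hxy : x ≠ y) :
    (univ.filter fun z : Sym2 (Fin n) => x ∈ z ∨ y ∈ z).card = 2 * n - 1 := by
  classical
  have hP : ∀ w : Fin n, (univ.filter fun z : Sym2 (Fin n) => w ∈ z) =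
      univ.image (fun m => s(w, m)) := by
    intro w
    ext z
    simp only [mem_filter, mem_univ, true_and, mem_image]
    rw [Sym2.mem_iff_exists]
    constructor
    · rintro ⟨m, rfl⟩; exact ⟨m, rfl⟩
    · rintro ⟨m, rfl⟩; exact ⟨m, rfl⟩
  have hcard : ∀ w : Fin n, (univ.filter fun z : Sym2 (Fin n) => w ∈ z).card = n := by
    intro w
    rw [hP w, Finset.card_image_of_injective]
    · simp
    · intro a b hab
      exact Sym2.congr_right.mp hab
  have hunion : (univ.filter fun z : Sym2 (Fin n) => x ∈ z ∨ y ∈ z) =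
      (univ.filter fun z : Sym2 (Fin n) => x ∈ z) ∪ (univ.filter fun z : Sym2 (Fin n) => y ∈ z) := by
    ext z; simp [mem_filter]
  have hinter : (univ.filter fun z : Sym2 (Fin n) => x ∈ z) ∩ (univ.filter fun z : Sym2 (Fin n) => y ∈ z)
      = {s(x, y)} := by
    ext z
    simp only [mem_inter, mem_filter, mem_univ, true_and, mem_singleton]
    constructor
    · rintro ⟨h1, h2⟩
      exact (Sym2.mem_and_mem_iff hxy).mp ⟨h1, h2⟩
    · rintro rfl
      exact ⟨Sym2.mem_mk_left _ _, Sym2.mem_mk_right _ _⟩
  have := Finset.card_union_add_card_inter (univ.filter fun z : Sym2 (Fin n) => x ∈ z)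
    (univ.filter fun z : Sym2 (Fin n) => y ∈ z)
  rw [hinter, ← hunion, hcard, hcard, card_singleton] at this
  omega

/-- Upper bound for the intersection of two determining events. -/
lemma card_inter_le_aux {x x' y y' : Fin n} (hxy : x ≠ y) (hx'x : x' ≠ x) (hx'y : x' ≠ y)
    (hy'x : y' ≠ x) (hy'y : y' ≠ y) (s t : Bool) :
    2 ^ (2 * n - 1) * (rowEv x' x s ∩ rowEv y' y t).card ≤ 2 ^ Fintype.card (Sym2 (Fin n)) := by
  classical
  set D : Finset (Sym2 (Fin n)) := univ.filter fun z : Sym2 (Fin n) => x ∈ z ∨ y ∈ z with hD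
  have hDcard : D.card = 2 * n - 1 := card_meets hxy
  -- restriction to the complement of D is injective on the intersection
  have hle : (rowEv x' x s ∩ rowEv y' y t).card ≤
      (univ : Finset ({z : Sym2 (Fin n) // z ∉ D} → Bool)).card := by
    apply Finset.card_le_card_of_injOn (fun u z => u z.1)
    · intro u _
      simp
    · intro u hu v hv huv
      simp only [coe_inter, Set.mem_inter_iff, mem_coe] at hu hv
      apply determined hx'x hx'y hy'x hy'y hu.1 hu.2 hv.1 hv.2
      intro a b ha ha' hb hb'
      have hz : s(a, b) ∉ D := by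
        simp only [hD, mem_filter, mem_univ, true_and, Sym2.mem_iff]
        intro hcon
        rcases hcon with (h | h) | (h | h)
        · exact ha h.symm
        · exact hb h.symm
        · exact ha' h.symm
        · exact hb' h.symm
      exact congrFun huv ⟨s(a, b), hz⟩
  have hcard2 : (univ : Finset ({z : Sym2 (Fin n) // z ∉ D} → Bool)).card =
      2 ^ (Fintype.card (Sym2 (Fin n)) - D.card) := by
    rw [Finset.card_univ, Fintype.card_fun, Fintype.card_bool, Fintype.card_subtype_compl]
    simp
  have hDle : D.card ≤ Fintype.card (Sym2 (Fin n)) := by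
    rw [← Finset.card_univ]
    exact Finset.card_le_card (Finset.subset_univ _)
  calc 2 ^ (2 * n - 1) * (rowEv x' x s ∩ rowEv y' y t).card
      ≤ 2 ^ (2 * n - 1) * 2 ^ (Fintype.card (Sym2 (Fin n)) - D.card) := by
        apply Nat.mul_le_mul_left
        rw [← hcard2]
        exact hle
    _ = 2 ^ Fintype.card (Sym2 (Fin n)) := by
        rw [← hDcard, ← pow_add]
        congr 1
        omega

/-- Upper bound for the intersection of two events attached to different pairs. -/
lemma card_inter_le {i j k l : Fin n} (hij : i ≠ j) (hkl : k ≠ l) (hne : s(i, j) ≠ s(k, l))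
    (s t : Bool) :
    2 ^ (2 * n - 1) * (rowEv i j s ∩ rowEv k l t).card ≤ 2 ^ Fintype.card (Sym2 (Fin n)) := by
  have hne' : ¬ ((i = k ∧ j = l) ∨ (i = l ∧ j = k)) := by
    intro h
    exact hne (Sym2.eq_iff.mpr h)
  by_cases hjk : j = k
  · -- then i is not in {k, l}; x = i, x' = j, y = l, y' = k
    subst hjk
    have hil : i ≠ l := fun h => hne' (Or.inr ⟨h, rfl⟩)
    rw [rowEv_symm i j s]
    exact card_inter_le_aux hil hij.symm hkl hij.symm hkl s t
  · by_cases hjl : j = l
    · subst hjl
      have hik : i ≠ k := fun h => hne' (Or.inl ⟨h, rfl⟩)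
      rw [rowEv_symm i j s, rowEv_symm k j t]
      exact card_inter_le_aux hik hij.symm hkl.symm hij.symm hkl.symm s t
    · -- j is not in {k, l}; x = j, x' = i
      by_cases hil : i = l
      · subst hil
        -- y = k, y' = l = i
        rw [rowEv_symm k i t]
        exact card_inter_le_aux hjk hij (Ne.symm hkl) hij (Ne.symm hkl) s t
      · -- y = l, y' = k
        exact card_inter_le_aux hjl hij hil (Ne.symm hjk) hkl s t

/-- Opposite events on the same pair are disjoint. -/
lemma rowEv_inter_opp (i j : Fin n) (s t : Bool) (hst : s ≠ t) :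
    rowEv i j s ∩ rowEv i j t = ∅ := by
  ext u
  simp only [mem_inter, mem_rowEv, notMem_empty, iff_false, not_and]
  intro h1 h2
  have := (h1 j).symm.trans (h2 j)
  revert this
  cases u s(i, j) <;> cases s <;> cases t <;> simp at hst ⊢

end Vale.Agent.H43.P160
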