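import Mathlib

namespace Vale.Agent.H43.P160

/-- The set of real symmetric `n × n` matrices all of whose entries are `1` or `-1`. -/
def symSignMatrices (n : ℕ) : Set (Matrix (Fin n) (Fin n) ℝ) :=
  {A | A.IsSymm ∧ ∀ i j, A i j = 1 ∨ A i j = -1}

/-- `singProb n` is the probability that a uniformly random real symmetric `n × n` sign matrix
is singular: the number of singular symmetric sign matrices divided by the number of all
symmetric sign matrices. -/
noncomputable def singProb (n : ℕ) : ℝ :=
  (({A ∈ symSignMatrices n | A.det = 0}).ncard : ℝ) / ((symSignMatrices n).ncard : ℝ)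

end Vale.Agent.H43.P160
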