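import Vale.Agent.H43.P160.Defs
import Vale.Agent.H43.P160.Count
import Vale.Agent.H43.P160.Bonferroni

namespace Vale.Agent.H43.P160

open Finset

variable {n : ℕ}

/-- The sign matrix of a Boolean pattern on unordered pairs. -/
noncomputable def toMat (u : Sym2 (Fin n) → Bool) : Matrix (Fin n) (Fin n) ℝ :=
  Matrix.of fun i j => if u s(i, j) then 1 else -1

lemma toMat_apply (u : Sym2 (Fin n) → Bool) (i j : Fin n) :
    toMat u i j = if u s(i, j) then 1 else -1 := rfl

lemma toMat_injective : Function.Injective (toMat (n := n)) := by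
  intro u v h
  funext z
  induction z using Sym2.ind with
  | _ a b =>
    have := congrFun (congrFun h a) b
    rw [toMat_apply, toMat_apply] at this
    cases hu : u s(a, b) <;> cases hv : v s(a, b) <;> simp [hu, hv] at this ⊢
    all_goals norm_num at this

lemma range_toMat : Set.range (toMat (n := n)) = symSignMatrices n := by
  classical
  ext A
  constructor
  · rintro ⟨u, rfl⟩
    refine ⟨?_, ?_⟩
    · ext i j
      simp [Matrix.transpose_apply, toMat_apply, Sym2.eq_swap]
    · intro i j
      rw [toMat_apply]
      cases u s(i, j) <;> simp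
  · rintro ⟨hsymm, hsign⟩
    refine ⟨Sym2.lift ⟨fun a b => decide (A a b = 1), ?_⟩, ?_⟩
    · intro a b
      have : A a b = A b a := by
        have := congrFun (congrFun hsymm b) a
        simpa [Matrix.transpose_apply] using this
      simp [this]
    · ext i j
      rw [toMat_apply]
      simp only [Sym2.lift_mk, decide_eq_true_eq]
      rcases hsign i j with h | h
      · simp [h]
      · simp [h]
        norm_num

lemma ncard_symSign : (symSignMatrices n).ncard = 2 ^ Fintype.card (Sym2 (Fin n)) := by
  rw [← range_toMat, ← Set.image_univ, Set.ncard_image_of_injective _ toMat_injective,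
    Set.ncard_univ, Nat.card_eq_fintype_card]
  simp

lemma ncard_sing [DecidablePred fun u : Sym2 (Fin n) → Bool => (toMat u).det = 0] :
    ({A ∈ symSignMatrices n | A.det = 0}).ncard =
      (univ.filter fun u : Sym2 (Fin n) → Bool => (toMat u).det = 0).card := by
  have : {A ∈ symSignMatrices n | A.det = 0} =
      toMat '' (↑(univ.filter fun u : Sym2 (Fin n) → Bool => (toMat u).det = 0) : Set _) := by
    ext A
    constructor
    · rintro ⟨hA, hdet⟩
      rw [← range_toMat] at hA
      obtain ⟨u, rfl⟩ := hA
      exact ⟨u, by simpa using hdet, rfl⟩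
    · rintro ⟨u, hu, rfl⟩
      refine ⟨?_, by simpa using hu⟩
      rw [← range_toMat]
      exact ⟨u, rfl⟩
  rw [this, Set.ncard_image_of_injective _ toMat_injective, Set.ncard_coe_finset]

/-- Proportional rows force a vanishing determinant. -/
lemma det_eq_zero_of_mem_rowEv {i j : Fin n} (hij : i ≠ j) {s : Bool}
    {u : Sym2 (Fin n) → Bool} (hu : u ∈ rowEv i j s) : (toMat u).det = 0 := by
  rw [mem_rowEv] at hu
  set c : ℝ := if s then 1 else -1 with hc
  rw [← Matrix.det_updateRow_add_smul_self (toMat u) (Ne.symm hij) c]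
  apply Matrix.det_eq_zero_of_row_eq_zero j
  intro m
  rw [Matrix.updateRow_self]
  simp only [Pi.add_apply, Pi.smul_apply, smul_eq_mul, toMat_apply, hu m, hc]
  cases u s(i, m) <;> cases s <;> simp


/-- The index set of the events: pairs `i < j` together with a sign. -/
def idx (n : ℕ) : Finset ((Fin n × Fin n) × Bool) :=
  (univ.filter fun p : Fin n × Fin n => p.1 < p.2) ×ˢ univ

/-- The event attached to an index. -/
def ev (a : (Fin n × Fin n) × Bool) : Finset (Sym2 (Fin n) → Bool) :=
  rowEv a.1.1 a.1.2 a.2

lemma card_idx (n : ℕ) : (idx n).card = n * (n - 1) := by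
  rw [idx, Finset.card_product, Fintype.card_product_filter_lt]
  simp only [Fintype.card_fin, Finset.card_univ, Fintype.card_bool, Nat.choose_two_right]
  exact Nat.div_mul_cancel (Nat.even_mul_pred_self n).two_dvd

lemma mem_idx {a : (Fin n × Fin n) × Bool} : a ∈ idx n ↔ a.1.1 < a.1.2 := by
  simp [idx]

lemma card_same_pair {a : (Fin n × Fin n) × Bool} (ha : a ∈ idx n) :
    ((idx n).filter fun b => ¬ b.1 = a.1).card = n * (n - 1) - 2 := by
  classical
  have h1 := Finset.card_filter_add_card_filter_not (s := idx n) (fun b => b.1 = a.1)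
  have h2 : ((idx n).filter fun b => b.1 = a.1) = {(a.1, false), (a.1, true)} := by
    ext b
    simp only [mem_filter, mem_insert, mem_singleton]
    constructor
    · rintro ⟨_, hb⟩
      rcases b with ⟨b1, b2⟩
      simp only at hb
      subst hb
      cases b2 <;> simp
    · rintro (rfl | rfl)
      · exact ⟨mem_idx.mpr (by simpa using mem_idx.mp ha), rfl⟩
      · exact ⟨mem_idx.mpr (by simpa using mem_idx.mp ha), rfl⟩
  rw [h2, card_idx] at h1
  have h3 : ({(a.1, false), (a.1, true)} : Finset ((Fin n × Fin n) × Bool)).card = 2 := by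
    rw [Finset.card_pair]
    simp
  rw [h3] at h1
  omega

/-- The main counting inequality, in natural numbers. -/
lemma main_nat (n : ℕ) [DecidablePred fun u : Sym2 (Fin n) → Bool => (toMat u).det = 0] :
    2 * (n * (n - 1) * 2 ^ Fintype.card (Sym2 (Fin n))) * 2 ^ (2 * n - 1) ≤
      2 * (univ.filter fun u : Sym2 (Fin n) → Bool => (toMat u).det = 0).card * 2 ^ n
          * 2 ^ (2 * n - 1)
        + n * (n - 1) * (n * (n - 1) - 2) * 2 ^ Fintype.card (Sym2 (Fin n)) * 2 ^ n := by
  classical
  set K := 2 ^ Fintype.card (Sym2 (Fin n)) with hK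
  set S := (univ.filter fun u : Sym2 (Fin n) → Bool => (toMat u).det = 0) with hS
  have hB := bonferroni (idx n) (ev (n := n))
  -- the union of the events lies in the singular set
  have hU : ((idx n).biUnion ev).card ≤ S.card := by
    apply Finset.card_le_card
    intro u hu
    rw [mem_biUnion] at hu
    obtain ⟨a, ha, hua⟩ := hu
    rw [hS, mem_filter]
    exact ⟨mem_univ _, det_eq_zero_of_mem_rowEv (ne_of_lt (mem_idx.mp ha)) hua⟩
  -- lower bound for the single events
  have hL : n * (n - 1) * K ≤ 2 ^ n * ∑ a ∈ idx n, (ev a).card := by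
    rw [Finset.mul_sum, ← card_idx, ← smul_eq_mul, ← Finset.sum_const]
    apply Finset.sum_le_sum
    intro a ha
    exact card_rowEv_ge a.1.1 a.1.2 (ne_of_lt (mem_idx.mp ha)) a.2
  -- upper bound for the pairwise intersections
  have hI : 2 ^ (2 * n - 1) * ∑ a ∈ idx n, ∑ b ∈ (idx n).erase a, (ev a ∩ ev b).card ≤
      n * (n - 1) * (n * (n - 1) - 2) * K := by
    rw [Finset.mul_sum]
    have : ∀ a ∈ idx n, 2 ^ (2 * n - 1) * ∑ b ∈ (idx n).erase a, (ev a ∩ ev b).card ≤
        (n * (n - 1) - 2) * K := by
      intro a ha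
      rw [Finset.mul_sum]
      calc ∑ b ∈ (idx n).erase a, 2 ^ (2 * n - 1) * (ev a ∩ ev b).card
          ≤ ∑ b ∈ (idx n).erase a, (if b.1 = a.1 then 0 else K) := by
            apply Finset.sum_le_sum
            intro b hb
            rw [mem_erase] at hb
            by_cases hba : b.1 = a.1
            · have hsign : a.2 ≠ b.2 := by
                intro h
                exact hb.1 (Prod.ext hba h.symm)
              have : ev a ∩ ev b = ∅ := by
                unfold ev
                rw [hba]
                exact rowEv_inter_opp a.1.1 a.1.2 a.2 b.2 hsign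
              simp [this, hba]
            · simp only [hba, if_false]
              have hne : s(a.1.1, a.1.2) ≠ s(b.1.1, b.1.2) := by
                intro h
                rw [Sym2.eq_iff] at h
                have hlt1 := mem_idx.mp ha
                have hlt2 := mem_idx.mp hb.2
                rcases h with ⟨h1, h2⟩ | ⟨h1, h2⟩
                · exact hba (Prod.ext h1.symm h2.symm)
                · rw [h1, h2] at hlt1
                  exact lt_asymm hlt1 hlt2
              exact card_inter_le (ne_of_lt (mem_idx.mp ha)) (ne_of_lt (mem_idx.mp hb.2)) hne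
                a.2 b.2
        _ ≤ ∑ b ∈ idx n, (if b.1 = a.1 then 0 else K) := by
            apply Finset.sum_le_sum_of_subset
            exact Finset.erase_subset _ _
        _ = (n * (n - 1) - 2) * K := by
            rw [Finset.sum_ite, Finset.sum_const_zero, zero_add, Finset.sum_const,
              card_same_pair ha, smul_eq_mul]
    calc ∑ a ∈ idx n, 2 ^ (2 * n - 1) * ∑ b ∈ (idx n).erase a, (ev a ∩ ev b).card
        ≤ ∑ a ∈ idx n, (n * (n - 1) - 2) * K := Finset.sum_le_sum this
      _ = n * (n - 1) * (n * (n - 1) - 2) * K := by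
          rw [Finset.sum_const, card_idx, smul_eq_mul]
          ring
  calc 2 * (n * (n - 1) * K) * 2 ^ (2 * n - 1)
      ≤ 2 * (2 ^ n * ∑ a ∈ idx n, (ev a).card) * 2 ^ (2 * n - 1) := by
        gcongr
    _ = (2 * ∑ a ∈ idx n, (ev a).card) * (2 ^ n * 2 ^ (2 * n - 1)) := by ring
    _ ≤ (2 * ((idx n).biUnion ev).card + ∑ a ∈ idx n, ∑ b ∈ (idx n).erase a, (ev a ∩ ev b).card)
          * (2 ^ n * 2 ^ (2 * n - 1)) := by
        gcongr
    _ = 2 * ((idx n).biUnion ev).card * 2 ^ n * 2 ^ (2 * n - 1)
          + (2 ^ (2 * n - 1) * ∑ a ∈ idx n, ∑ b ∈ (idx n).erase a, (ev a ∩ ev b).card) * 2 ^ n := by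
        ring
    _ ≤ 2 * S.card * 2 ^ n * 2 ^ (2 * n - 1)
          + n * (n - 1) * (n * (n - 1) - 2) * K * 2 ^ n := by
        gcongr

end Vale.Agent.H43.P160
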